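import Vale.Agent.P095JS.PartT4
import Vale.Agent.P095JS.PartE1
import Vale.Agent.P095JS.Stmt

/-! Uniform convergence of the point traces to the unique trace; faithfulness of the trace. -/

open scoped Matrix.Norms.L2Operator ComplexOrder unitInterval Topology
open Filter Vale.Agent.JS

namespace Vale.Agent.P095U57

universe u

variable {Z : Type u} [CStarAlgebra Z]

theorem exists_limU (U : Ultrafilter ℕ) {a : ℕ → ℂ} {K : ℝ} (h : ∀ n, ‖a n‖ ≤ K) :
    ∃ l, Tendsto a U (𝓝 l) := by
  have h1 : ((U.map a : Ultrafilter ℂ) : Filter ℂ) ≤ 𝓟 (Metric.closedBall (0 : ℂ) K) := by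
    rw [Filter.le_principal_iff]
    exact Filter.mem_map.mpr (Filter.univ_mem' fun n => by
      simpa [dist_zero_right] using h n)
  obtain ⟨l, _, hl⟩ := (isCompact_closedBall (0 : ℂ) K).ultrafilter_le_nhds (U.map a) h1
  exact ⟨l, hl⟩

theorem lim_trace {D : ℕ → Type} [∀ n, Ring (D n)] [∀ n, StarRing (D n)] [∀ n, Algebra ℂ (D n)]
    (ι : ∀ n, D n →⋆ₐ[ℂ] Z) (t : ∀ n, D n →ₗ[ℂ] ℂ) (ht1 : ∀ n x, ‖t n x‖ ≤ ‖ι n x‖)
    (ht2 : ∀ n x, 0 ≤ t n (star x * x)) (ht3 : ∀ n, t n 1 = 1)
    (ht4 : ∀ n x y, t n (x * y) = t n (y * x))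
    (happ : ∀ z : Z, ∃ s : ∀ n, D n, Tendsto (fun n => ι n (s n)) atTop (𝓝 z))
    (U : Ultrafilter ℕ) (hU : (U : Filter ℕ) ≤ atTop) :
    ∃ T : Z →ₗ[ℂ] ℂ, IsTracialState T ∧ (∀ z, ‖T z‖ ≤ ‖z‖) ∧ ∀ (z : Z) (s : ∀ n, D n),
      Tendsto (fun n => ι n (s n)) U (𝓝 z) → Tendsto (fun n => t n (s n)) U (𝓝 (T z)) := by
  choose S hS using happ
  have hlim : ∀ z : Z, ∃ l, Tendsto (fun n => t n (S z n)) U (𝓝 l) := by
    intro z
    obtain ⟨K, hK⟩ := (Metric.isBounded_range_of_tendsto _ (hS z)).exists_norm_le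
    exact exists_limU U (K := K) fun n => (ht1 n _).trans (hK _ ⟨n, rfl⟩)
  choose T hT using hlim
  have hS' : ∀ z, Tendsto (fun n => ι n (S z n)) U (𝓝 z) := fun z => (hS z).mono_left hU
  have key : ∀ (z : Z) (s : ∀ n, D n), Tendsto (fun n => ι n (s n)) U (𝓝 z) →
      Tendsto (fun n => t n (s n)) U (𝓝 (T z)) := by
    intro z s hs
    have h1 : Tendsto (fun n => t n (s n) - t n (S z n)) U (𝓝 0) := by
      have h2 : Tendsto (fun n => ‖ι n (s n) - ι n (S z n)‖) U (𝓝 0) := by
        have := (hs.sub (hS' z)).norm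
        rwa [sub_self, norm_zero] at this
      rw [tendsto_zero_iff_norm_tendsto_zero]
      refine squeeze_zero (fun n => norm_nonneg _) (fun n => ?_) h2
      rw [← map_sub, ← map_sub]
      exact ht1 n _
    simpa using h1.add (hT z)
  refine ⟨{ toFun := T, map_add' := ?_, map_smul' := ?_ }, ⟨?_, ?_, ?_⟩, ?_, key⟩
  · intro x y
    have h1 := key (x + y) (fun n => S x n + S y n)
      (by simpa only [map_add] using (hS' x).add (hS' y))
    exact tendsto_nhds_unique h1 (((hT x).add (hT y)).congr fun n => (map_add (t n) _ _).symm)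
  · intro c x
    have h1 := key (c • x) (fun n => c • S x n)
      (by simpa only [map_smul] using (hS' x).const_smul c)
    exact tendsto_nhds_unique h1 (((hT x).const_smul c).congr fun n => (map_smul (t n) _ _).symm)
  · intro x
    have h1 := key (star x * x) (fun n => star (S x n) * S x n)
      (by simpa only [map_mul, map_star] using (hS' x).star.mul (hS' x))
    exact ge_of_tendsto' h1 fun n => ht2 n _
  · have h1 := key 1 (fun n => 1) (by simpa only [map_one] using tendsto_const_nhds)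
    exact tendsto_nhds_unique h1 (tendsto_const_nhds.congr fun n => (ht3 n).symm)
  · intro x y
    have h1 := key (x * y) (fun n => S x n * S y n)
      (by simpa only [map_mul] using (hS' x).mul (hS' y))
    have h2 := key (y * x) (fun n => S y n * S x n)
      (by simpa only [map_mul] using (hS' y).mul (hS' x))
    exact tendsto_nhds_unique h1 (h2.congr fun n => ht4 n _ _)
  · intro z
    exact le_of_tendsto_of_tendsto' (hT z).norm (hS' z).norm fun n => ht1 n _

/-- The normalised trace at the point `s`. -/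
noncomputable def ptr (p q : ℕ) (s : I) : DD p q →ₗ[ℂ] ℂ where
  toFun g := PartT4.nt ((g : CM p q) s)
  map_add' x y := by
    change PartT4.nt ((x : CM p q) s + (y : CM p q) s) = _
    unfold PartT4.nt
    rw [Matrix.trace_add, mul_add]
  map_smul' c x := by
    change PartT4.nt (c • (x : CM p q) s) = _
    unfold PartT4.nt
    rw [Matrix.trace_smul, smul_eq_mul, smul_eq_mul, RingHom.id_apply]
    ring

theorem trace_unif {p q : ℕ → ℕ} (hp : ∀ n, 0 < p n) (hq : ∀ n, 0 < q n)
    (ι : ∀ n, DD (p n) (q n) →⋆ₐ[ℂ] Z) (hinj : ∀ n, Function.Injective (ι n))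
    (hmono : Monotone fun n => (ι n).range) (hd : Dense (⋃ n, Set.range (ι n)))
    {τ : Z →ₗ[ℂ] ℂ} (hτ : ∀ τ', IsTracialState τ' → τ' = τ) :
    (∀ z, ‖τ z‖ ≤ ‖z‖) ∧ ∀ (z : Z) (ε : ℝ), 0 < ε → ∀ᶠ m in atTop,
      ∀ (g : DD (p m) (q m)) (s : I), ι m g = z →
        ‖PartT4.nt ((g : CM (p m) (q m)) s) - τ z‖ < ε := by
  have happ : ∀ z : Z, ∃ s : ∀ n, DD (p n) (q n), Tendsto (fun n => ι n (s n)) atTop (𝓝 z) := by
    intro z
    obtain ⟨s, hs⟩ := PartT4.exists_app (R := fun n => (ι n).range) hmono hd z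
    choose g hg using fun n => (s n).2
    exact ⟨g, hs.congr fun n => (hg n).symm⟩
  have main : ∀ (s : ℕ → I) (U : Ultrafilter ℕ), (U : Filter ℕ) ≤ atTop →
      (∀ z, ‖τ z‖ ≤ ‖z‖) ∧ ∀ (z : Z) (g : ∀ n, DD (p n) (q n)),
        Tendsto (fun n => ι n (g n)) U (𝓝 z) →
          Tendsto (fun n => ptr (p n) (q n) (s n) (g n)) U (𝓝 (τ z)) := by
    intro s U hU
    obtain ⟨T, h1, h2⟩ := lim_trace ι (fun n => ptr (p n) (q n) (s n)) (fun n x => by
        rw [NonUnitalStarAlgHom.norm_map (ι n) (hinj n)]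
        exact (PartT4.norm_nt_le _).trans (ContinuousMap.norm_coe_le_norm (x : CM (p n) (q n)) _))
      (fun n x => PartT4.nt_nonneg _)
      (fun n => by
        have : Nonempty (Fin (p n) × Fin (q n)) := ⟨(⟨0, hp n⟩, ⟨0, hq n⟩)⟩
        exact PartT4.nt_one)
      (fun n x y => PartT4.nt_mul_comm _ _) happ U hU
    rw [hτ T h1] at h2
    exact h2
  refine ⟨(main (fun _ => 0) (hyperfilter ℕ) Nat.hyperfilter_le_atTop).1, fun z ε hε => ?_⟩
  by_contra hcon
  rw [not_eventually] at hcon
  have := frequently_iff_neBot.1 hcon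
  have hle := Ultrafilter.of_le (atTop ⊓ 𝓟 {m | ¬ ∀ (g : DD (p m) (q m)) (s : I), ι m g = z →
    ‖PartT4.nt ((g : CM (p m) (q m)) s) - τ z‖ < ε})
  have hch : ∀ m, ∃ (g : DD (p m) (q m)) (s : I),
      (¬ ∀ (g : DD (p m) (q m)) (s : I), ι m g = z →
        ‖PartT4.nt ((g : CM (p m) (q m)) s) - τ z‖ < ε) →
      ι m g = z ∧ ε ≤ ‖ptr (p m) (q m) s g - τ z‖ := by
    intro m
    by_cases h : ∀ (g : DD (p m) (q m)) (s : I), ι m g = z →
        ‖PartT4.nt ((g : CM (p m) (q m)) s) - τ z‖ < ε
    · exact ⟨0, 0, fun h' => (h' h).elim⟩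
    · push Not at h
      obtain ⟨g, s, h1, h2⟩ := h
      exact ⟨g, s, fun _ => ⟨h1, h2⟩⟩
  choose g s hgs using hch
  have hev := (le_principal_iff.1 (hle.trans inf_le_right))
  have h1 := (main s _ (hle.trans inf_le_left)).2 z g
    (tendsto_const_nhds.congr' (mem_of_superset hev fun m hm => (hgs m hm).1.symm))
  have h2 := (h1.sub_const (τ z)).norm
  rw [sub_self, norm_zero] at h2
  exact absurd (ge_of_tendsto h2 (mem_of_superset hev fun m hm => (hgs m hm).2)) (not_le.2 hε)

theorem trace_pos (hs : P095R.IsSimpleAlg Z) {τ : Z →ₗ[ℂ] ℂ} (hτ : IsTracialState τ)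
    (hb : ∀ z, ‖τ z‖ ≤ ‖z‖) {x : Z} (hx : x ≠ 0) : 0 < (τ (star x * x)).re := by
  have hc : Continuous τ :=
    (τ.mkContinuous 1 fun z => by simpa only [one_mul] using hb z).continuous
  let J : Submodule ℂ Z :=
    { carrier := {x | ∀ y, τ (y * x) = 0}
      add_mem' := fun {a b} ha hb y => by rw [mul_add, map_add, ha y, hb y, add_zero]
      zero_mem' := fun y => by rw [mul_zero, map_zero]
      smul_mem' := fun c a ha y => by rw [mul_smul_comm, map_smul, ha y, smul_zero] }
  have hJ : IsClosed (J : Set Z) := by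
    have : (J : Set Z) = ⋂ y, {x | τ (y * x) = 0} := by
      ext a
      rw [Set.mem_iInter]
      exact Iff.rfl
    rw [this]
    exact isClosed_iInter fun y => isClosed_eq (hc.comp (continuous_const_mul y)) continuous_const
  have hbot : J = ⊥ := by
    refine (hs.ideal J hJ fun a ha b => ⟨fun y => ?_, fun y => ?_⟩).resolve_right fun h => ?_
    · rw [← mul_assoc]
      exact ha _
    · rw [← mul_assoc, hτ.tracial, ← mul_assoc]
      exact ha _
    · have h1 : (1 : Z) ∈ J := h ▸ Submodule.mem_top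
      have h2 := h1 1
      rw [mul_one, hτ.one] at h2
      exact one_ne_zero h2
  have h0 := Complex.nonneg_iff.1 (hτ.nonneg x)
  refine lt_of_le_of_ne h0.1 fun h => hx ?_
  have hz : τ (star x * x) = 0 := Complex.ext h.symm h0.2.symm
  have hxJ : x ∈ J := by
    intro y
    have key : ∀ c : ℂ, 0 ≤ c * τ (star x * star y) + star c * τ (y * x) +
        star c * c * τ (y * star y) := by
      intro c
      have h1 := hτ.nonneg (x + c • star y)
      have e : star (x + c • star y) * (x + c • star y) = star x * x + c • (star x * star y) +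
          star c • (y * x) + (star c * c) • (y * star y) := by
        simp only [star_add, star_smul, star_star, add_mul, mul_add, smul_mul_assoc,
          mul_smul_comm, smul_smul, smul_add]
        rw [mul_comm c (star c)]
        abel
      rw [e] at h1
      simpa only [map_add, map_smul, hz, zero_add, smul_eq_mul] using h1
    have hy := Complex.nonneg_iff.1 (hτ.nonneg (star y))
    rw [star_star] at hy
    generalize τ (star x * star y) = a at key
    generalize τ (y * x) = b at key ⊢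
    generalize τ (y * star y) = d at key hy
    have k : ∀ u v : ℝ, 0 ≤ u * (a.re + b.re) + v * (b.im - a.im) + (u * u + v * v) * d.re ∧
        0 = u * (a.im + b.im) + v * (a.re - b.re) := by
      intro u v
      have h1 := Complex.nonneg_iff.1 (key ⟨u, v⟩)
      simp only [Complex.add_re, Complex.add_im, Complex.mul_re, Complex.mul_im, Complex.star_def,
        Complex.conj_re, Complex.conj_im, ← hy.2] at h1
      constructor
      · nlinarith [h1.1]
      · nlinarith [h1.2]
    have e1 : a.im = -b.im := by linarith [(k 1 0).2]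
    have e2 : a.re = b.re := by linarith [(k 0 1).2]
    have hd : 0 < d.re + 1 := by linarith [hy.1]
    have h3 := (k (-(b.re / (d.re + 1))) (-(b.im / (d.re + 1)))).1
    rw [e1, e2] at h3
    obtain ⟨r, hr⟩ : ∃ r, r = b.re / (d.re + 1) := ⟨_, rfl⟩
    obtain ⟨i, hi⟩ : ∃ i, i = b.im / (d.re + 1) := ⟨_, rfl⟩
    have hr' : b.re = r * (d.re + 1) := by rw [hr, div_mul_cancel₀ _ hd.ne']
    have hi' : b.im = i * (d.re + 1) := by rw [hi, div_mul_cancel₀ _ hd.ne']
    rw [← hr, ← hi, hr', hi'] at h3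
    have h4 : r * r + i * i ≤ 0 := by nlinarith [hy.1, mul_self_nonneg r, mul_self_nonneg i]
    have h5 : r = 0 := by nlinarith [mul_self_nonneg r, mul_self_nonneg i]
    have h6 : i = 0 := by nlinarith [mul_self_nonneg r, mul_self_nonneg i]
    apply Complex.ext
    · rw [hr', h5, zero_mul, Complex.zero_re]
    · rw [hi', h6, zero_mul, Complex.zero_im]
  rwa [hbot, Submodule.mem_bot] at hxJ

end Vale.Agent.P095U57
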